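import Mathlib

namespace Vale.Agent.Results.P052.FewPoints

open Finset

section geom

variable {E : Type*} [NormedAddCommGroup E] [InnerProductSpace ℝ E]

theorem dist_sq_sum (P : Finset E) (f : E → ℝ) (h0 : ∑ p ∈ P, f p = 0)
    (h1 : ∑ p ∈ P, f p • p = 0) :
    ∑ p ∈ P, ∑ q ∈ P, f p * f q * dist p q ^ 2 = 0 := by
  have key : ∀ p q : E, f p * f q * dist p q ^ 2
      = f p * ‖p‖ ^ 2 * f q - 2 * inner ℝ (f p • p) (f q • q) + f p * (f q * ‖q‖ ^ 2) := by
    intro p q
    rw [dist_eq_norm, norm_sub_sq_real, inner_smul_left, inner_smul_right]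
    simp
    ring
  simp only [key, Finset.sum_add_distrib, Finset.sum_sub_distrib, ← Finset.mul_sum,
    ← Finset.sum_mul, ← sum_inner, ← inner_sum, h0, h1]
  simp

omit [InnerProductSpace ℝ E] in
theorem clique_sum (K : Finset E) (f : E → ℝ) (D : ℝ)
    (hK : ∀ u ∈ K, ∀ v ∈ K, u ≠ v → dist u v = D) :
    ∑ u ∈ K, ∑ v ∈ K, f u * f v * dist u v ^ 2
      = D ^ 2 * ((∑ u ∈ K, f u) ^ 2 - ∑ u ∈ K, f u ^ 2) := by
  classical
  have key : ∀ u ∈ K, ∀ v ∈ K, f u * f v * dist u v ^ 2
      = D ^ 2 * (f u * f v) - (if u = v then D ^ 2 * f v ^ 2 else 0) := by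
    intro u hu v hv
    by_cases huv : u = v
    · subst huv
      simp
      ring
    · rw [hK u hu v hv huv]
      simp [huv]
      ring
  calc ∑ u ∈ K, ∑ v ∈ K, f u * f v * dist u v ^ 2
      = ∑ u ∈ K, ∑ v ∈ K, (D ^ 2 * (f u * f v) - (if u = v then D ^ 2 * f v ^ 2 else 0)) :=
        Finset.sum_congr rfl (fun u hu => Finset.sum_congr rfl (fun v hv => key u hu v hv))
    _ = D ^ 2 * ((∑ u ∈ K, f u) ^ 2 - ∑ u ∈ K, f u ^ 2) := by
        simp only [Finset.sum_sub_distrib, ← Finset.mul_sum]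
        rw [Finset.sum_congr rfl (fun u hu => Finset.sum_ite_eq K u (fun v => D ^ 2 * f v ^ 2))]
        rw [Finset.sum_congr rfl (fun u (hu : u ∈ K) => if_pos hu)]
        rw [← Finset.sum_mul, ← Finset.mul_sum]
        ring

theorem no_near_clique [FiniteDimensional ℝ E] (K : Finset E) (x z : E) (D : ℝ) (hD : 0 < D)
    (hK : ∀ u ∈ K, ∀ v ∈ K, u ≠ v → dist u v = D) (hcard : Module.finrank ℝ E ≤ K.card)
    (hx : ∀ u ∈ K, dist x u = D) (hz : ∀ u ∈ K, dist z u = D) (hxz : x ≠ z)
    (hle : dist x z ≤ D) : False := by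
  classical
  have hxK : x ∉ K := by
    intro h
    have h1 := hx x h
    rw [dist_self] at h1
    linarith
  have hzK : z ∉ K := by
    intro h
    have h1 := hz z h
    rw [dist_self] at h1
    linarith
  have hxzK : x ∉ insert z K := by
    simp [hxz, hxK]
  have hcardP : Module.finrank ℝ E + 1 < (insert x (insert z K)).card := by
    rw [Finset.card_insert_of_notMem hxzK, Finset.card_insert_of_notMem hzK]
    omega
  obtain ⟨f, h1, h0, p, hp, hfp⟩ :=
    Module.exists_nontrivial_relation_sum_zero_of_finrank_succ_lt_card hcardP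
  have H := dist_sq_sum (insert x (insert z K)) f h0 h1
  have hl : 0 < dist x z := dist_pos.2 hxz
  have e1 : ∑ u ∈ K, f x * f u * dist x u ^ 2 = D ^ 2 * f x * ∑ u ∈ K, f u := by
    rw [Finset.sum_congr rfl (fun u hu => by rw [hx u hu])]
    rw [← Finset.sum_mul, ← Finset.mul_sum]
    ring
  have e2 : ∑ u ∈ K, f z * f u * dist z u ^ 2 = D ^ 2 * f z * ∑ u ∈ K, f u := by
    rw [Finset.sum_congr rfl (fun u hu => by rw [hz u hu])]
    rw [← Finset.sum_mul, ← Finset.mul_sum]
    ring
  have e3 : ∑ u ∈ K, f u * f x * dist u x ^ 2 = D ^ 2 * f x * ∑ u ∈ K, f u := by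
    rw [Finset.sum_congr rfl (fun u hu => by rw [dist_comm u x, hx u hu])]
    rw [← Finset.sum_mul, ← Finset.sum_mul]
    ring
  have e4 : ∑ u ∈ K, f u * f z * dist u z ^ 2 = D ^ 2 * f z * ∑ u ∈ K, f u := by
    rw [Finset.sum_congr rfl (fun u hu => by rw [dist_comm u z, hz u hu])]
    rw [← Finset.sum_mul, ← Finset.sum_mul]
    ring
  have e5 := clique_sum K f D hK
  simp only [Finset.sum_insert hxzK, Finset.sum_insert hzK, Finset.sum_add_distrib,
    dist_self, e1, e2, e3, e4, e5, dist_comm z x] at H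
  rw [Finset.sum_insert hxzK, Finset.sum_insert hzK] at h0
  have hS : ∑ u ∈ K, f u = -(f x + f z) := by linarith
  rw [hS] at H
  have hQ : 0 ≤ ∑ u ∈ K, f u ^ 2 := Finset.sum_nonneg (fun u _ => sq_nonneg _)
  have hDl : 0 ≤ D ^ 2 - dist x z ^ 2 := by nlinarith
  have hmain : D ^ 2 * ∑ u ∈ K, f u ^ 2 + (D ^ 2 - dist x z ^ 2) * (f x + f z) ^ 2
      + dist x z ^ 2 * (f x ^ 2 + f z ^ 2) = 0 := by
    linarith
  have t1 : 0 ≤ D ^ 2 * ∑ u ∈ K, f u ^ 2 := mul_nonneg (sq_nonneg _) hQ
  have t2 : 0 ≤ (D ^ 2 - dist x z ^ 2) * (f x + f z) ^ 2 := mul_nonneg hDl (sq_nonneg _)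
  have t3 : 0 ≤ dist x z ^ 2 * (f x ^ 2 + f z ^ 2) :=
    mul_nonneg (sq_nonneg _) (add_nonneg (sq_nonneg _) (sq_nonneg _))
  have q0 : D ^ 2 * ∑ u ∈ K, f u ^ 2 = 0 := by linarith
  have q3 : dist x z ^ 2 * (f x ^ 2 + f z ^ 2) = 0 := by linarith
  have hQ0 : ∑ u ∈ K, f u ^ 2 = 0 := by
    rcases mul_eq_zero.1 q0 with h | h
    · have := (pow_eq_zero_iff (two_ne_zero)).1 h
      linarith
    · exact h
  have hfxz : f x ^ 2 + f z ^ 2 = 0 := by
    rcases mul_eq_zero.1 q3 with h | h
    · have := (pow_eq_zero_iff (two_ne_zero)).1 h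
      linarith
    · exact h
  have hfx : f x = 0 := by nlinarith [sq_nonneg (f x), sq_nonneg (f z)]
  have hfz : f z = 0 := by nlinarith [sq_nonneg (f x), sq_nonneg (f z)]
  have hfK : ∀ u ∈ K, f u = 0 := by
    intro u hu
    have := (Finset.sum_eq_zero_iff_of_nonneg (fun u _ => sq_nonneg (f u))).1 hQ0 u hu
    exact (pow_eq_zero_iff (two_ne_zero)).1 this
  rcases Finset.mem_insert.1 hp with rfl | hp
  · exact hfp hfx
  · rcases Finset.mem_insert.1 hp with rfl | hp
    · exact hfp hfz
    · exact hfp (hfK p hp)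

end geom

section comb

variable {V : Type*} [DecidableEq V]

/-- `Y` is covered by at most `k` sets, none of which contains an adjacent pair. -/
def Col (adj : V → V → Prop) (Y : Finset V) (k : ℕ) : Prop :=
  ∃ P : Finset (Finset V), P.card ≤ k ∧ (∀ S ∈ P, ∀ p ∈ S, ∀ q ∈ S, ¬ adj p q) ∧
    ∀ p ∈ Y, ∃ S ∈ P, p ∈ S

omit [DecidableEq V] in
theorem col_mono {adj : V → V → Prop} {Y : Finset V} {k k' : ℕ} (h : Col adj Y k)
    (hk : k ≤ k') : Col adj Y k' := by
  obtain ⟨P, h1, h2, h3⟩ := h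
  exact ⟨P, le_trans h1 hk, h2, h3⟩

theorem col_card {adj : V → V → Prop} (irr : ∀ p, ¬ adj p p) (Y : Finset V) :
    Col adj Y Y.card := by
  refine ⟨Y.image (fun p => {p}), Finset.card_image_le, ?_, ?_⟩
  · intro S hS p hp q hq
    obtain ⟨r, _, rfl⟩ := Finset.mem_image.1 hS
    rw [Finset.mem_singleton] at hp hq
    rw [hp, hq]
    exact irr r
  · intro p hp
    exact ⟨{p}, Finset.mem_image_of_mem _ hp, Finset.mem_singleton_self p⟩

theorem col_peel {adj : V → V → Prop} {Y S : Finset V} {k : ℕ}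
    (hS : ∀ p ∈ S, ∀ q ∈ S, ¬ adj p q) (h : Col adj (Y \ S) k) : Col adj Y (k + 1) := by
  obtain ⟨P, h1, h2, h3⟩ := h
  refine ⟨insert S P, le_trans (Finset.card_insert_le _ _) (by omega), ?_, ?_⟩
  · intro T hT
    rcases Finset.mem_insert.1 hT with rfl | hT
    · exact hS
    · exact h2 T hT
  · intro p hp
    by_cases hpS : p ∈ S
    · exact ⟨S, Finset.mem_insert_self _ _, hpS⟩
    · obtain ⟨T, hT, hpT⟩ := h3 p (Finset.mem_sdiff.2 ⟨hp, hpS⟩)
      exact ⟨T, Finset.mem_insert_of_mem hT, hpT⟩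

theorem indep_pair {adj : V → V → Prop} (symm : ∀ p q, adj p q → adj q p)
    (irr : ∀ p, ¬ adj p p) {a b : V} (h : ¬ adj a b) :
    ∀ p ∈ ({a, b} : Finset V), ∀ q ∈ ({a, b} : Finset V), ¬ adj p q := by
  intro p hp q hq
  rw [Finset.mem_insert, Finset.mem_singleton] at hp hq
  rcases hp with rfl | rfl <;> rcases hq with rfl | rfl
  · exact irr _
  · exact h
  · exact fun h' => h (symm _ _ h')
  · exact irr _

theorem indep_triple {adj : V → V → Prop} (symm : ∀ p q, adj p q → adj q p)
    (irr : ∀ p, ¬ adj p p) {a b c : V} (hab : ¬ adj a b) (hac : ¬ adj a c) (hbc : ¬ adj b c) :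
    ∀ p ∈ ({a, b, c} : Finset V), ∀ q ∈ ({a, b, c} : Finset V), ¬ adj p q := by
  intro p hp q hq
  rw [Finset.mem_insert, Finset.mem_insert, Finset.mem_singleton] at hp hq
  rcases hp with rfl | rfl | rfl <;> rcases hq with rfl | rfl | rfl
  · exact irr _
  · exact hab
  · exact hac
  · exact fun h' => hab (symm _ _ h')
  · exact irr _
  · exact hbc
  · exact fun h' => hac (symm _ _ h')
  · exact fun h' => hbc (symm _ _ h')
  · exact irr _

theorem pairs_lemma {adj : V → V → Prop} (symm : ∀ p q, adj p q → adj q p)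
    (irr : ∀ p, ¬ adj p p) (Y U : Finset V) (d : ℕ) (a b a' b' : V)
    (hab : ¬ adj a b) (ha'b' : ¬ adj a' b')
    (hcov : ∀ p ∈ Y, p = a ∨ p = b ∨ p = a' ∨ p = b' ∨ p ∈ U) (hU : U.card ≤ d)
    (h1 : ∃ u ∈ U, ¬ adj a' u) (h2 : ∃ u ∈ U, ¬ adj b' u) : Col adj Y (d + 1) := by
  obtain ⟨u1, hu1, hn1⟩ := h1
  obtain ⟨u2, hu2, hn2⟩ := h2
  by_cases h : u1 = u2
  · subst h
    refine ⟨insert {a, b} (insert {a', b', u1} ((U.erase u1).image (fun p => {p}))), ?_, ?_, ?_⟩
    · have c1 := Finset.card_insert_le ({a, b} : Finset V)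
        (insert {a', b', u1} ((U.erase u1).image (fun p => ({p} : Finset V))))
      have c2 := Finset.card_insert_le ({a', b', u1} : Finset V)
        ((U.erase u1).image (fun p => ({p} : Finset V)))
      have c3 : ((U.erase u1).image (fun p => ({p} : Finset V))).card ≤ (U.erase u1).card :=
        Finset.card_image_le
      have c4 := Finset.card_erase_of_mem hu1
      have c5 : 0 < U.card := Finset.card_pos.2 ⟨u1, hu1⟩
      omega
    · intro S hS
      rcases Finset.mem_insert.1 hS with rfl | hS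
      · exact indep_pair symm irr hab
      rcases Finset.mem_insert.1 hS with rfl | hS
      · exact indep_triple symm irr ha'b' hn1 hn2
      · obtain ⟨r, _, rfl⟩ := Finset.mem_image.1 hS
        intro p hp q hq
        rw [Finset.mem_singleton] at hp hq
        rw [hp, hq]
        exact irr r
    · intro p hp
      rcases hcov p hp with rfl | rfl | rfl | rfl | hpU
      · exact ⟨{p, b}, by simp, by simp⟩
      · exact ⟨{a, p}, by simp, by simp⟩
      · exact ⟨{p, b', u1}, by simp, by simp⟩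
      · exact ⟨{a', p, u1}, by simp, by simp⟩
      · by_cases hpu : p = u1
        · exact ⟨{a', b', u1}, by simp, by simp [hpu]⟩
        · exact ⟨{p}, Finset.mem_insert_of_mem (Finset.mem_insert_of_mem
            (Finset.mem_image_of_mem _ (Finset.mem_erase.2 ⟨hpu, hpU⟩))),
            Finset.mem_singleton_self p⟩
  · refine ⟨insert {a, b} (insert {a', u1} (insert {b', u2}
      (((U.erase u1).erase u2).image (fun p => {p})))), ?_, ?_, ?_⟩
    · have c1 := Finset.card_insert_le ({a, b} : Finset V)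
        (insert {a', u1} (insert {b', u2}
          (((U.erase u1).erase u2).image (fun p => ({p} : Finset V)))))
      have c2 := Finset.card_insert_le ({a', u1} : Finset V)
        (insert {b', u2} (((U.erase u1).erase u2).image (fun p => ({p} : Finset V))))
      have c2' := Finset.card_insert_le ({b', u2} : Finset V)
        (((U.erase u1).erase u2).image (fun p => ({p} : Finset V)))
      have c3 : (((U.erase u1).erase u2).image (fun p => ({p} : Finset V))).card
          ≤ ((U.erase u1).erase u2).card := Finset.card_image_le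
      have hu2' : u2 ∈ U.erase u1 := Finset.mem_erase.2 ⟨fun h' => h h'.symm, hu2⟩
      have c4 := Finset.card_erase_of_mem hu1
      have c4' := Finset.card_erase_of_mem hu2'
      have c5 : 1 < U.card := Finset.one_lt_card.2 ⟨u1, hu1, u2, hu2, h⟩
      omega
    · intro S hS
      rcases Finset.mem_insert.1 hS with rfl | hS
      · exact indep_pair symm irr hab
      rcases Finset.mem_insert.1 hS with rfl | hS
      · exact indep_pair symm irr hn1
      rcases Finset.mem_insert.1 hS with rfl | hS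
      · exact indep_pair symm irr hn2
      · obtain ⟨r, _, rfl⟩ := Finset.mem_image.1 hS
        intro p hp q hq
        rw [Finset.mem_singleton] at hp hq
        rw [hp, hq]
        exact irr r
    · intro p hp
      rcases hcov p hp with rfl | rfl | rfl | rfl | hpU
      · exact ⟨{p, b}, by simp, by simp⟩
      · exact ⟨{a, p}, by simp, by simp⟩
      · exact ⟨{p, u1}, by simp, by simp⟩
      · exact ⟨{p, u2}, by simp, by simp⟩
      · by_cases hpu : p = u1
        · exact ⟨{a', u1}, by simp, by simp [hpu]⟩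
        · by_cases hpu2 : p = u2
          · exact ⟨{b', u2}, by simp, by simp [hpu2]⟩
          · exact ⟨{p}, Finset.mem_insert_of_mem (Finset.mem_insert_of_mem
              (Finset.mem_insert_of_mem (Finset.mem_image_of_mem _
                (Finset.mem_erase.2 ⟨hpu2, Finset.mem_erase.2 ⟨hpu, hpU⟩⟩)))),
              Finset.mem_singleton_self p⟩

theorem few_points {adj : V → V → Prop} (symm : ∀ p q, adj p q → adj q p)
    (irr : ∀ p, ¬ adj p p) (Y : Finset V) (d : ℕ)
    (NK : ∀ K : Finset V, K ⊆ Y → K.card = d → (∀ p ∈ K, ∀ q ∈ K, p ≠ q → adj p q) →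
      ∀ x ∈ Y, ∀ z ∈ Y, x ≠ z → x ∉ K → z ∉ K → (∀ u ∈ K, adj x u) → (∀ u ∈ K, adj z u) → False)
    (hY : Y.card ≤ d + 4) : Col adj Y (d + 1) := by
  classical
  -- cliques have at most d+1 elements
  have F1 : ∀ Q : Finset V, Q ⊆ Y → (∀ p ∈ Q, ∀ q ∈ Q, p ≠ q → adj p q) → Q.card ≤ d + 1 := by
    intro Q hQY hQ
    by_contra hcon
    push Not at hcon
    obtain ⟨Q', hQ'Q, hQ'card⟩ := Finset.exists_subset_card_eq (s := Q) (n := d + 2) (by omega)
    obtain ⟨x, hx⟩ := Finset.card_pos.1 (by omega : 0 < Q'.card)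
    have hc1 : (Q'.erase x).card = d + 1 := by
      rw [Finset.card_erase_of_mem hx]
      omega
    obtain ⟨z, hz⟩ := Finset.card_pos.1 (by omega : 0 < (Q'.erase x).card)
    have hc2 : ((Q'.erase x).erase z).card = d := by
      rw [Finset.card_erase_of_mem hz]
      omega
    have hzQ' : z ∈ Q' := Finset.mem_of_mem_erase hz
    have hsub : (Q'.erase x).erase z ⊆ Q' :=
      (Finset.erase_subset _ _).trans (Finset.erase_subset _ _)
    refine NK ((Q'.erase x).erase z) (hsub.trans (hQ'Q.trans hQY)) hc2 ?_ x (hQY (hQ'Q hx)) z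
      (hQY (hQ'Q hzQ')) ?_ ?_ ?_ ?_ ?_
    · intro p hp q hq hpq
      exact hQ p (hQ'Q (hsub hp)) q (hQ'Q (hsub hq)) hpq
    · exact fun h => (Finset.ne_of_mem_erase hz) h.symm
    · intro h
      exact (Finset.ne_of_mem_erase (Finset.mem_of_mem_erase h)) rfl
    · intro h
      exact (Finset.ne_of_mem_erase h) rfl
    · intro u hu
      exact hQ x (hQ'Q hx) u (hQ'Q (hsub hu))
        (fun h => (Finset.ne_of_mem_erase (Finset.mem_of_mem_erase hu)) h.symm)
    · intro u hu
      exact hQ z (hQ'Q hzQ') u (hQ'Q (hsub hu)) (fun h => (Finset.ne_of_mem_erase hu) h.symm)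
  -- a vertex outside a clique of size d+1 has two non-neighbours in it
  have F2 : ∀ Q : Finset V, Q ⊆ Y → (∀ p ∈ Q, ∀ q ∈ Q, p ≠ q → adj p q) → Q.card = d + 1 →
      ∀ p ∈ Y, p ∉ Q → ∃ q1 ∈ Q, ∃ q2 ∈ Q, q1 ≠ q2 ∧ ¬ adj p q1 ∧ ¬ adj p q2 := by
    intro Q hQY hQ hQcard p hp hpQ
    by_contra hcon
    push Not at hcon
    have hkey : ∃ q0 ∈ Q, ∀ u ∈ Q.erase q0, adj p u := by
      by_cases hex : ∃ q0 ∈ Q, ¬ adj p q0
      · obtain ⟨q0, hq0, hn⟩ := hex
        refine ⟨q0, hq0, ?_⟩
        intro u hu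
        exact hcon q0 hq0 u (Finset.mem_of_mem_erase hu)
          (fun h => (Finset.ne_of_mem_erase hu) h.symm) hn
      · push Not at hex
        obtain ⟨q0, hq0⟩ := Finset.card_pos.1 (by omega : 0 < Q.card)
        exact ⟨q0, hq0, fun u hu => hex u (Finset.mem_of_mem_erase hu)⟩
    obtain ⟨q0, hq0, hall⟩ := hkey
    have hc : (Q.erase q0).card = d := by
      rw [Finset.card_erase_of_mem hq0]
      omega
    refine NK (Q.erase q0) ((Finset.erase_subset _ _).trans hQY) hc ?_ p hp q0 (hQY hq0)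
      ?_ ?_ ?_ hall ?_
    · intro u hu v hv huv
      exact hQ u (Finset.mem_of_mem_erase hu) v (Finset.mem_of_mem_erase hv) huv
    · exact fun h => hpQ (h ▸ hq0)
    · exact fun h => hpQ (Finset.mem_of_mem_erase h)
    · exact fun h => (Finset.ne_of_mem_erase h) rfl
    · intro u hu
      exact hQ q0 hq0 u (Finset.mem_of_mem_erase hu) (fun h => (Finset.ne_of_mem_erase hu) h.symm)
  by_cases h1 : Y.card ≤ d + 1
  · exact col_mono (col_card irr Y) h1
  push Not at h1
  have hYnc : ∃ a ∈ Y, ∃ b ∈ Y, a ≠ b ∧ ¬ adj a b := by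
    by_contra hcon
    push Not at hcon
    have := F1 Y (Finset.Subset.refl _) (fun p hp q hq hpq => hcon p hp q hq hpq)
    omega
  obtain ⟨a, ha, b, hb, hab, hnab⟩ := hYnc
  have hY1card : (Y \ {a, b}).card = Y.card - 2 := by
    rw [Finset.card_sdiff_of_subset, Finset.card_pair hab]
    intro t ht
    rcases Finset.mem_insert.1 ht with rfl | ht
    · exact ha
    · rw [Finset.mem_singleton] at ht
      rw [ht]
      exact hb
  by_cases h2 : (Y \ {a, b}).card ≤ d
  · exact col_peel (indep_pair symm irr hnab) (col_mono (col_card irr _) h2)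
  push Not at h2
  by_cases hc1 : ∀ p ∈ Y \ {a, b}, ∀ q ∈ Y \ {a, b}, p ≠ q → adj p q
  · -- the rest is a clique with d+1 elements
    have hcard1 : (Y \ {a, b}).card = d + 1 := by
      have := F1 _ Finset.sdiff_subset hc1
      omega
    have ha1 : a ∉ Y \ {a, b} := by simp
    have hb1 : b ∉ Y \ {a, b} := by simp
    obtain ⟨q1, hq1, q2, hq2, hq12, hna1, hna2⟩ :=
      F2 _ Finset.sdiff_subset hc1 hcard1 a ha ha1
    obtain ⟨r1, hr1, r2, hr2, hr12, hnb1, hnb2⟩ :=
      F2 _ Finset.sdiff_subset hc1 hcard1 b hb hb1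
    obtain ⟨u', hu', hu'ne, hnbu'⟩ : ∃ u' ∈ Y \ {a, b}, u' ≠ q1 ∧ ¬ adj b u' := by
      by_cases h : r1 = q1
      · exact ⟨r2, hr2, fun h' => hr12 (h.trans h'.symm), hnb2⟩
      · exact ⟨r1, hr1, h, hnb1⟩
    have hrest : ((Y \ {a, q1}) \ {b, u'}).card + 2 ≤ d + 1 := by
      have hsub : (Y \ {a, q1}) \ {b, u'} ⊆ ((Y \ {a, b}).erase q1).erase u' := by
        intro t ht
        simp only [Finset.mem_sdiff, Finset.mem_insert, Finset.mem_singleton,
          Finset.mem_erase] at ht ⊢
        tauto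
      have h5 := Finset.card_le_card hsub
      rw [Finset.card_erase_of_mem (Finset.mem_erase.2 ⟨hu'ne, hu'⟩),
        Finset.card_erase_of_mem hq1] at h5
      have h6 : 1 < (Y \ {a, b}).card :=
        Finset.one_lt_card.2 ⟨q1, hq1, u', hu', fun h => hu'ne h.symm⟩
      omega
    exact col_mono (col_peel (indep_pair symm irr hna1)
      (col_peel (indep_pair symm irr hnbu') (col_card irr _))) hrest
  · -- a second non-adjacent pair
    push Not at hc1
    obtain ⟨a', ha', b', hb', ha'b', hna'b'⟩ := hc1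
    have hY2card : ((Y \ {a, b}) \ {a', b'}).card = (Y \ {a, b}).card - 2 := by
      rw [Finset.card_sdiff_of_subset, Finset.card_pair ha'b']
      intro t ht
      rcases Finset.mem_insert.1 ht with rfl | ht
      · exact ha'
      · rw [Finset.mem_singleton] at ht
        rw [ht]
        exact hb'
    by_cases h3 : ((Y \ {a, b}) \ {a', b'}).card + 2 ≤ d + 1
    · exact col_mono (col_peel (indep_pair symm irr hnab)
        (col_peel (indep_pair symm irr hna'b') (col_card irr _))) h3
    push Not at h3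
    have hY2 : ((Y \ {a, b}) \ {a', b'}).card = d := by omega
    by_cases hc2 : ∀ p ∈ (Y \ {a, b}) \ {a', b'}, ∀ q ∈ (Y \ {a, b}) \ {a', b'},
        p ≠ q → adj p q
    · -- the rest is a clique with d elements
      have hUY : (Y \ {a, b}) \ {a', b'} ⊆ Y :=
        Finset.sdiff_subset.trans Finset.sdiff_subset
      have hcov : ∀ p ∈ Y, p = a ∨ p = b ∨ p = a' ∨ p = b' ∨ p ∈ (Y \ {a, b}) \ {a', b'} := by
        intro p hp
        simp only [Finset.mem_sdiff, Finset.mem_insert, Finset.mem_singleton]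
        tauto
      have hcov' : ∀ p ∈ Y, p = a' ∨ p = b' ∨ p = a ∨ p = b ∨ p ∈ (Y \ {a, b}) \ {a', b'} := by
        intro p hp
        simp only [Finset.mem_sdiff, Finset.mem_insert, Finset.mem_singleton]
        tauto
      have haU : a ∉ (Y \ {a, b}) \ {a', b'} := by simp
      have hbU : b ∉ (Y \ {a, b}) \ {a', b'} := by simp
      have ha'U : a' ∉ (Y \ {a, b}) \ {a', b'} := by simp
      have hb'U : b' ∉ (Y \ {a, b}) \ {a', b'} := by simp
      have ha'Y : a' ∈ Y := Finset.sdiff_subset ha'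
      have hb'Y : b' ∈ Y := Finset.sdiff_subset hb'
      have haa' : a ≠ a' := by
        rintro rfl
        simp at ha'
      have hab' : a ≠ b' := by
        rintro rfl
        simp at hb'
      have hba' : b ≠ a' := by
        rintro rfl
        simp at ha'
      have hbb' : b ≠ b' := by
        rintro rfl
        simp at hb'
      have F3 := NK _ hUY hY2 hc2
      by_cases hfa' : ∀ u ∈ (Y \ {a, b}) \ {a', b'}, adj a' u
      · have hna : ∃ u ∈ (Y \ {a, b}) \ {a', b'}, ¬ adj a u := by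
          by_contra h
          push Not at h
          exact F3 a ha a' ha'Y haa' haU ha'U h hfa'
        have hnb : ∃ u ∈ (Y \ {a, b}) \ {a', b'}, ¬ adj b u := by
          by_contra h
          push Not at h
          exact F3 b hb a' ha'Y hba' hbU ha'U h hfa'
        exact pairs_lemma symm irr Y _ d a' b' a b hna'b' hnab hcov' (le_of_eq hY2) hna hnb
      · by_cases hfb' : ∀ u ∈ (Y \ {a, b}) \ {a', b'}, adj b' u
        · have hna : ∃ u ∈ (Y \ {a, b}) \ {a', b'}, ¬ adj a u := by
            by_contra h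
            push Not at h
            exact F3 a ha b' hb'Y hab' haU hb'U h hfb'
          have hnb : ∃ u ∈ (Y \ {a, b}) \ {a', b'}, ¬ adj b u := by
            by_contra h
            push Not at h
            exact F3 b hb b' hb'Y hbb' hbU hb'U h hfb'
          exact pairs_lemma symm irr Y _ d a' b' a b hna'b' hnab hcov' (le_of_eq hY2) hna hnb
        · push Not at hfa' hfb'
          exact pairs_lemma symm irr Y _ d a b a' b' hnab hna'b' hcov (le_of_eq hY2) hfa' hfb'
    · -- a third non-adjacent pair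
      push Not at hc2
      obtain ⟨a'', ha'', b'', hb'', ha''b'', hna''b''⟩ := hc2
      have hY3 : (((Y \ {a, b}) \ {a', b'}) \ {a'', b''}).card + 3 ≤ d + 1 := by
        have h6 : 1 < ((Y \ {a, b}) \ {a', b'}).card :=
          Finset.one_lt_card.2 ⟨a'', ha'', b'', hb'', ha''b''⟩
        rw [Finset.card_sdiff_of_subset, Finset.card_pair ha''b'']
        · omega
        · intro t ht
          rcases Finset.mem_insert.1 ht with rfl | ht
          · exact ha''
          · rw [Finset.mem_singleton] at ht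
            rw [ht]
            exact hb''
      exact col_mono (col_peel (indep_pair symm irr hnab)
        (col_peel (indep_pair symm irr hna'b')
          (col_peel (indep_pair symm irr hna''b'') (col_card irr _)))) hY3

end comb

/-- **Borsuk's conjecture for sets of at most `d + 4` points.**  Every set `Y` of at least two
and at most `d + 4` points of Euclidean `d`-space is the union of the `d + 1` sets
`Y ∩ f ⁻¹' {i}`, `i : Fin (d + 1)`, each of which has diameter strictly smaller than the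
diameter of `Y`. -/
theorem result (d : ℕ) (Y : Finset (EuclideanSpace ℝ (Fin d))) (h2 : 2 ≤ Y.card)
    (hY : Y.card ≤ d + 4) :
    ∃ f : EuclideanSpace ℝ (Fin d) → Fin (d + 1),
      ∀ i, Metric.diam ((Y : Set (EuclideanSpace ℝ (Fin d))) ∩ f ⁻¹' {i})
        < Metric.diam (Y : Set (EuclideanSpace ℝ (Fin d))) := by
  classical
  have hbdd : Bornology.IsBounded (Y : Set (EuclideanSpace ℝ (Fin d))) :=
    Y.finite_toSet.isBounded
  have hle : ∀ p ∈ Y, ∀ q ∈ Y,
      dist p q ≤ Metric.diam (Y : Set (EuclideanSpace ℝ (Fin d))) :=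
    fun p hp q hq => Metric.dist_le_diam_of_mem hbdd hp hq
  have hD : 0 < Metric.diam (Y : Set (EuclideanSpace ℝ (Fin d))) := by
    obtain ⟨p, hp, q, hq, hpq⟩ := Finset.one_lt_card.1 (by omega : 1 < Y.card)
    exact lt_of_lt_of_le (dist_pos.2 hpq) (hle p hp q hq)
  have hcol := few_points
    (adj := fun p q : EuclideanSpace ℝ (Fin d) =>
      dist p q = Metric.diam (Y : Set (EuclideanSpace ℝ (Fin d))))
    (fun p q h => by rw [dist_comm]; exact h)
    (fun p h => by rw [dist_self] at h; exact (ne_of_gt hD) h.symm) Y d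
    (fun K hKY hKcard hK x hx z hz hxz _ _ hxK hzK =>
      no_near_clique K x z _ hD hK (by rw [finrank_euclideanSpace_fin, hKcard]) hxK hzK hxz
        (hle x hx z hz)) hY
  obtain ⟨P, hPcard, hPind, hPcov⟩ := hcol
  -- an injection of `P` into `Fin (d + 1)`
  let g : Finset (EuclideanSpace ℝ (Fin d)) → Fin (d + 1) := fun S =>
    if h : S ∈ P then Fin.castLE hPcard (P.equivFin ⟨S, h⟩) else 0
  have hg : ∀ S ∈ P, ∀ T ∈ P, g S = g T → S = T := by
    intro S hS T hT hST
    simp only [g, dif_pos hS, dif_pos hT] at hST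
    have h3 := P.equivFin.injective (Fin.castLE_injective hPcard hST)
    exact congrArg Subtype.val h3
  -- the class of a point
  let c : EuclideanSpace ℝ (Fin d) → Finset (EuclideanSpace ℝ (Fin d)) := fun p =>
    if h : p ∈ Y then Classical.choose (hPcov p h) else ∅
  have hc : ∀ p ∈ Y, c p ∈ P ∧ p ∈ c p := by
    intro p hp
    simp only [c, dif_pos hp]
    exact Classical.choose_spec (hPcov p hp)
  have hf : ∀ p ∈ Y, ∀ q ∈ Y, g (c p) = g (c q) →
      dist p q < Metric.diam (Y : Set (EuclideanSpace ℝ (Fin d))) := by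
    intro p hp q hq hpq
    have h3 := hg _ (hc p hp).1 _ (hc q hq).1 hpq
    have h4 : q ∈ c p := by
      rw [h3]
      exact (hc q hq).2
    exact lt_of_le_of_ne (hle p hp q hq) (hPind _ (hc p hp).1 p (hc p hp).2 q h4)
  refine ⟨fun p => g (c p), ?_⟩
  intro i
  by_cases hne : ((Y : Set (EuclideanSpace ℝ (Fin d))) ∩ (fun p => g (c p)) ⁻¹' {i}).Nonempty
  · obtain ⟨w, hwY, hwi⟩ := hne
    have hT : ((Y.filter (fun p => g (c p) = i)) ×ˢ (Y.filter (fun p => g (c p) = i))).Nonempty :=
      ⟨(w, w), Finset.mem_product.2 ⟨Finset.mem_filter.2 ⟨hwY, hwi⟩,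
        Finset.mem_filter.2 ⟨hwY, hwi⟩⟩⟩
    obtain ⟨pq, hpq, hmax⟩ := Finset.exists_max_image _
      (fun pq : EuclideanSpace ℝ (Fin d) × EuclideanSpace ℝ (Fin d) => dist pq.1 pq.2) hT
    have h5 : Metric.diam ((Y : Set (EuclideanSpace ℝ (Fin d))) ∩ (fun p => g (c p)) ⁻¹' {i})
        ≤ dist pq.1 pq.2 := by
      refine Metric.diam_le_of_forall_dist_le dist_nonneg ?_
      intro x hx y hy
      exact hmax (x, y) (Finset.mem_product.2 ⟨Finset.mem_filter.2 ⟨hx.1, hx.2⟩,
        Finset.mem_filter.2 ⟨hy.1, hy.2⟩⟩)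
    have h6 := Finset.mem_product.1 hpq
    have h7 := Finset.mem_filter.1 h6.1
    have h8 := Finset.mem_filter.1 h6.2
    exact lt_of_le_of_lt h5 (hf _ h7.1 _ h8.1 (h7.2.trans h8.2.symm))
  · rw [Set.not_nonempty_iff_eq_empty.1 hne, Metric.diam_empty]
    exact hD

end Vale.Agent.Results.P052.FewPoints
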